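import Vale.Agent.P254.H630.EqD5
import Vale.Agent.P254.H115.StZdd
import Vale.Agent.P254.H657.Final

/-!
# P254 / P248: the final assembly from the matrix inequality `(DD)` (helper630)

From `StDD r σ` (the inequality `∑ r (β_a) tr (T_a D T_a D) ≤ ∑ σ (β_i) σ (β_j) D_ij ^ 2` in frames, for
all tilts of nice measures), a `WProfile F` with `σ ^ 2 ≤ p ^ 3 r`, and the behaviour of `r`, `σ`, `w`
near `0`, we get the strong isotropic constant conjecture with its equality case (P254, first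
question) and the strong Mahler conjecture with its equality case (P248, second question).
-/

namespace Vale.Agent.P254.Eq630

open MeasureTheory Matrix Filter Topology Set
open R304 Eq657
open Vale.Agent.P254.L

variable {n : ℕ}

/-- behaviour of the weights near `0` -/
def Asy (q r1 : ℝ) (r σ : ℝ → ℝ) : Prop := ∀ δ : ℝ, 0 < δ → ∃ x0 : ℝ, 0 < x0 ∧
  ∀ x, 0 < x → x ≤ x0 → q ^ 2 * (1 + (r1 - δ) * x) ≤ r x ∧ 0 ≤ σ x ∧
    σ x ≤ 2 * q * (1 - (3 - r1 / 2 - δ) * x)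

/-- block E0 for `(DD)` -/
theorem smallD {q r1 : ℝ} {r σ : ℝ → ℝ} (hq : 0 < q) (ha : Asy q r1 r σ) (hX : StDD r σ) :
    SmallD r1 := by
  intro n δ hδ
  obtain ⟨x1, hx1, h1⟩ := ha δ hδ
  refine ⟨min x1 (1 / 2), lt_min hx1 (by norm_num), ?_⟩
  intro K hK hs hi ε m hε hm t ht c hsm D hD M hM
  rw [covF_eq_AF, X.Top.nice_eq_wK] at hsm
  rw [covF_eq_AF, Z325.T3_eq, X.Top.nice_eq_wK]
  have hB : (t • (1 : Mat n)).PosDef := PosDef.one.smul ht
  have hDD : DDfr r σ (Vale.Agent.P254.Fr.AF (Vale.Agent.P254.Fr.wK K ε m) (t • (1 : Mat n)) c)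
      (t • (1 : Mat n))
      (Vale.Agent.P254.Fr.TF (Vale.Agent.P254.Fr.wK K ε m) (t • (1 : Mat n)) c) :=
    hX n (Vale.Agent.P254.Fr.tiltData hK hs hi hε hm) (t • (1 : Mat n)) hB c
  have hA : (Vale.Agent.P254.Fr.AF (Vale.Agent.P254.Fr.wK K ε m) (t • (1 : Mat n)) c).PosDef :=
    (Vale.Agent.P254.Fr.tiltData hK hs hi hε hm).posA (t • (1 : Mat n)) hB.posSemidef c
  have hle : ∀ x, x ≤ min x1 (1 / 2) → x ≤ x1 := fun x hx => hx.trans (min_le_left _ _)
  exact smallD_core (x0 := min x1 (1 / 2)) hq ((min_le_right _ _).trans_lt (by norm_num))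
    (fun x hx hx' => (h1 x hx (hle x hx')).1) (fun x hx hx' => (h1 x hx (hle x hx')).2.1)
    (fun x hx hx' => (h1 x hx (hle x hx')).2.2) ht hA hDD hsm hD hM

/-- `(DD)` gives its diagonal case -/
theorem stDDdiag {F : Profile} {r σ : ℝ → ℝ}
    (hσ : ∀ x ∈ Ioo (0 : ℝ) 1, σ x ^ 2 ≤ F.p x ^ 3 * r x) (hX : StDD r σ) :
    H115.StDDdiag F r := by
  intro n D B hB c L β hL h1 h2 hβ d hd
  have hdp : (Matrix.diagonal d).PosSemidef := (Matrix.posSemidef_diagonal_iff).2 fun i => (hd i).le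
  have h := hX n D B hB c L β hL h1 h2 hβ _ hdp
  have e1 : N3 (Matrix.diagonal fun a => r (β a)) (Matrix.diagonal d) (Matrix.diagonal d)
      (frT L (D.T B c)) (frT L (D.T B c)) =
      ∑ a, r (β a) * ∑ i, ∑ j, d i * d j * frT L (D.T B c) a i j ^ 2 := by
    unfold N3
    refine Finset.sum_congr rfl fun a _ => ?_
    rw [Finset.mul_sum]
    refine Finset.sum_congr rfl fun i _ => ?_
    rw [Finset.mul_sum]
    refine Finset.sum_congr rfl fun j _ => ?_
    rw [Finset.sum_eq_single a]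
    · rw [Finset.sum_eq_single i]
      · rw [Finset.sum_eq_single j]
        · rw [Matrix.diagonal_apply_eq, Matrix.diagonal_apply_eq, Matrix.diagonal_apply_eq]
          ring
        · intro k _ hk
          rw [Matrix.diagonal_apply_ne _ (Ne.symm hk)]
          ring
        · intro h
          exact absurd (Finset.mem_univ j) h
      · intro k _ hk
        refine Finset.sum_eq_zero fun l _ => ?_
        rw [Matrix.diagonal_apply_ne _ (Ne.symm hk)]
        ring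
      · intro h
        exact absurd (Finset.mem_univ i) h
    · intro k _ hk
      refine Finset.sum_eq_zero fun l _ => Finset.sum_eq_zero fun l' _ => ?_
      rw [Matrix.diagonal_apply_ne _ (Ne.symm hk)]
      ring
    · intro h
      exact absurd (Finset.mem_univ a) h
  have e2 : ((Matrix.diagonal (fun i => σ (β i)) * Matrix.diagonal d) ^ 2).trace =
      ∑ i, σ (β i) ^ 2 * d i ^ 2 := by
    rw [Matrix.diagonal_mul_diagonal, pow_two, Matrix.diagonal_mul_diagonal, Matrix.trace_diagonal]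
    exact Finset.sum_congr rfl fun i _ => by ring
  rw [e1, e2] at h
  refine h.trans (Finset.sum_le_sum fun i _ => ?_)
  exact mul_le_mul_of_nonneg_right (hσ _ (hβ i)) (sq_nonneg _)

/-- block Z for `(DD)`, with the term `∑ w (β_i)` -/
theorem smallZD {F : Profile} (W : WProfile F) {r : ℝ → ℝ} {r0 C : ℝ} (hr0 : 0 < r0)
    (hr : ∀ x ∈ Ioo (0 : ℝ) 1, r0 ≤ r x)
    (hC : ∀ x ∈ Ioo (0 : ℝ) 1, r x * W.w1 x * Real.sqrt (1 - x) ≤ C)
    (hX : H115.StDDdiag F r)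
    (hw : ∀ δ : ℝ, 0 < δ → ∃ x0 : ℝ, 0 < x0 ∧ ∀ x, 0 < x → x ≤ x0 →
      (1 - δ) * x ≤ W.w x) : SmallZ := by
  intro n δ hδ
  obtain ⟨x1, hx1, h1⟩ := hw δ hδ
  refine ⟨x1, hx1, ?_⟩
  intro K hK hs hi ε m hε hm t ht c hsm
  have hB : (t • (1 : Mat n)).PosDef := PosDef.one.smul ht
  rw [DD_eq (nice_pos hi hε m)]
  rw [covF_eq_AF] at hsm ⊢
  rw [X.Top.nice_eq_wK] at hsm ⊢
  have hA : (Vale.Agent.P254.Fr.AF (Vale.Agent.P254.Fr.wK K ε m) (t • (1 : Mat n)) c).PosDef :=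
    (Vale.Agent.P254.Fr.tiltData hK hs hi hε hm).posA (t • (1 : Mat n)) hB.posSemidef c
  obtain ⟨L, β, hF⟩ := exists_Fr hA hB.isHermitian
  have hβ : ∀ i, β i ∈ Ioo (0 : ℝ) 1 :=
    Vale.Agent.P254.L.Fr.beta_mem (D := Vale.Agent.P254.Fr.tiltData hK hs hi hε hm) hB c hF
  have h2 := H115.ent_ge W hr0 hr hC (Vale.Agent.P254.Fr.entData hK hs hi hε hm)
    (hX n (Vale.Agent.P254.Fr.tiltData hK hs hi hε hm)) hB c hF
  obtain ⟨h3, h4⟩ := Z325.frame_facts ht hF.hA hF.hB (fun i => (hβ i).1) hsm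
  have h5 : ∑ i, (1 - δ) * β i ≤ ∑ i, W.w (β i) :=
    Finset.sum_le_sum fun i _ => h1 _ (hβ i).1 (h4 i)
  rw [← Finset.mul_sum, h3] at h5
  have h6 : (n : ℝ) + 1 / 2 * Real.log (Vale.Agent.P254.Fr.AF (Vale.Agent.P254.Fr.wK K ε m)
      (t • (1 : Mat n)) c).det + ∑ i, W.w (β i) ≤
      Vale.Agent.P254.Fr.EntF (Vale.Agent.P254.Fr.wK K ε m) (t • (1 : Mat n)) c := h2
  linarith

/-- no loss for the nice measures -/
theorem niceDDL0 (hZ : StZ) (n : ℕ) : X.Loss.NiceDDL 0 n := by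
  refine X.Loss.NiceFrL.niceDDL ?_
  intro K hK hs hi ε m hε hm B hB c
  rw [X.Top.nice_eq_wK]
  have h : (n : ℝ) + 1 / 2 * Real.log (Vale.Agent.P254.Fr.AF (Vale.Agent.P254.Fr.wK K ε m)
      B c).det ≤ Vale.Agent.P254.Fr.EntF (Vale.Agent.P254.Fr.wK K ε m) B c :=
    hZ n (Vale.Agent.P254.Fr.tiltData hK hs hi hε hm)
      (Vale.Agent.P254.Fr.entData hK hs hi hε hm) B hB c
  linarith

/-- the data of the `(DD)` chain -/
structure Chain (F : Profile) (W : WProfile F) (r σ : ℝ → ℝ) : Prop where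
  /-- the clock is bounded below -/
  lower : ∃ r0 : ℝ, 0 < r0 ∧ ∀ x ∈ Ioo (0 : ℝ) 1, r0 ≤ r x
  /-- growth at `1` -/
  upper : ∃ C : ℝ, ∀ x ∈ Ioo (0 : ℝ) 1, r x * W.w1 x * Real.sqrt (1 - x) ≤ C
  /-- relation of the two weights -/
  rel : ∀ x ∈ Ioo (0 : ℝ) 1, σ x ^ 2 ≤ F.p x ^ 3 * r x
  /-- behaviour at `0` -/
  asy : ∃ q r1 : ℝ, 0 < q ∧ Asy q r1 r σ
  /-- behaviour of `w` at `0` -/
  asyw : ∀ δ : ℝ, 0 < δ → ∃ x0 : ℝ, 0 < x0 ∧ ∀ x, 0 < x → x ≤ x0 → (1 - δ) * x ≤ W.w x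
  /-- the matrix inequality -/
  dd : StDD r σ

namespace Chain

variable {F : Profile} {W : WProfile F} {r σ : ℝ → ℝ} (h : Chain F W r σ)
include h

theorem diag : H115.StDDdiag F r := stDDdiag h.rel h.dd

theorem stZ : StZ := by
  obtain ⟨r0, h0, h1⟩ := h.lower
  obtain ⟨C, hC⟩ := h.upper
  exact H115.stZ W h0 h1 hC h.diag

theorem small_Z : SmallZ := by
  obtain ⟨r0, h0, h1⟩ := h.lower
  obtain ⟨C, hC⟩ := h.upper
  exact smallZD W h0 h1 hC h.diag h.asyw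

theorem eq_case (n : ℕ) (K S : Set (Fin n → ℝ)) (hn : 1 ≤ n) (hK : IsConvexBody K)
    (hS : IsSimplex S) (he : isoConst K = isoConst S) : IsSimplex K := by
  obtain ⟨q, r1, hq, ha⟩ := h.asy
  exact isSimplex_of_eqD (smallD hq ha h.dd) h.small_Z n K S hn hK hS he

/-- **P254, first question, in full, from `(DD)`** -/
theorem isoConst_full' (n : ℕ) (hn : 1 ≤ n) (K S : Set (Fin n → ℝ)) (hK : IsConvexBody K)
    (hS : IsSimplex S) :
    isoConst K ≤ isoConst S ∧ (isoConst K = isoConst S → IsSimplex K) := by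
  refine ⟨?_, h.eq_case n K S hn hK hS⟩
  have h1 := X.Loss.isoConst_le_of_niceDDL hn (niceDDL0 h.stZ (n + 1)) hK hS
  simpa using h1

/-- **P248, second question, in full, from `(DD)`** -/
theorem mahler_full' {n : ℕ} {K : Set (Vale.Agent.P248.H432.E n)}
    (hK : Vale.Agent.P248.IsConvexBody K) : Vale.Agent.P248.H432.MahlerFor K :=
  Vale.Agent.P248.H656.mahlerFor (niceDDL0 h.stZ (n + 1)) (fun hn K S hK hS he =>
    h.eq_case n K S hn hK hS he) hK

end Chain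

end Vale.Agent.P254.Eq630
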