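import Vale.Agent.P254.DD.Iface
import Vale.Agent.P254.H630.FinalD

/-! P254 (helper630): from the interface `DD.StXdd F G` of the maximum principle to `StDD`. -/

namespace Vale.Agent.P254.Eq630

open MeasureTheory Matrix Filter Topology Set
open Vale.Agent.P254.L

variable {n : ℕ}

theorem N3_gm (w : Vec n) (D : Mat n) (hD : ∀ i j, D i j = D j i) (T : Ten n)
    (hT : ∀ a i j, T a i j = T a j i) :
    N3 (Matrix.diagonal w) D D T T = ∑ a, w a * DD.gm T D a a := by
  unfold N3
  refine Finset.sum_congr rfl fun a _ => ?_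
  have h1 : ∀ b c, ∑ a', ∑ b', ∑ c', (Matrix.diagonal w) a a' * D b b' * D c c' * T a b c *
      T a' b' c' = w a * ∑ b', ∑ c', D b b' * D c c' * T a b c * T a b' c' := by
    intro b c
    rw [Finset.sum_eq_single a]
    · rw [Finset.mul_sum]
      refine Finset.sum_congr rfl fun b' _ => ?_
      rw [Finset.mul_sum]
      refine Finset.sum_congr rfl fun c' _ => ?_
      rw [Matrix.diagonal_apply_eq]
      ring
    · intro a' _ ha
      refine Finset.sum_eq_zero fun b' _ => Finset.sum_eq_zero fun c' _ => ?_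
      rw [Matrix.diagonal_apply_ne _ (Ne.symm ha)]
      ring
    · intro h
      exact absurd (Finset.mem_univ a) h
  simp only [h1, ← Finset.mul_sum]
  congr 1
  unfold DD.gm DD.slc Matrix.trace
  simp only [Matrix.diag_apply, Matrix.mul_apply, Matrix.of_apply, Finset.sum_mul]
  -- both sides are sums over four indices
  have h2 : ∀ c, ∑ b', ∑ c', ∑ b, T a c b * D b b' * T a b' c' * D c' c =
      ∑ b, ∑ b', ∑ c', D b b' * D c c' * T a b c * T a b' c' := by
    intro c
    calc ∑ b', ∑ c', ∑ b, T a c b * D b b' * T a b' c' * D c' c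
        = ∑ b', ∑ b, ∑ c', T a c b * D b b' * T a b' c' * D c' c :=
          Finset.sum_congr rfl fun b' _ => Finset.sum_comm
      _ = ∑ b, ∑ b', ∑ c', T a c b * D b b' * T a b' c' * D c' c := Finset.sum_comm
      _ = _ := Finset.sum_congr rfl fun b _ => Finset.sum_congr rfl fun b' _ =>
          Finset.sum_congr rfl fun c' _ => by
            rw [hT a c b, hD c' c]
            ring
  have h3 : ∑ c, ∑ b', ∑ c', ∑ b, T a c b * D b b' * T a b' c' * D c' c =
      ∑ c, ∑ b, ∑ b', ∑ c', D b b' * D c c' * T a b c * T a b' c' :=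
    Finset.sum_congr rfl fun c _ => h2 c
  have h4 : ∀ c, ∑ c', ∑ b', ∑ b, T a c b * D b b' * T a b' c' * D c' c =
      ∑ b', ∑ c', ∑ b, T a c b * D b b' * T a b' c' * D c' c := fun c => Finset.sum_comm
  simp only [h4]
  rw [h3, Finset.sum_comm]

/-- from the interface of the maximum principle -/
theorem stDD_of {F G : Profile} (h : DD.StXdd F G) : StDD (DD.wt G) F.p := by
  intro n D B hB c L β _ h1 h2 _ M hM
  have hMs : ∀ i j, M i j = M j i := by
    intro i j
    have := congrFun (congrFun hM.1 i) j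
    rw [Matrix.conjTranspose_apply, star_trivial] at this
    exact this.symm
  have hTs : ∀ a i j, frT L (D.T B c) a i j = frT L (D.T B c) a j i := by
    intro a i j
    unfold frT
    refine Finset.sum_congr rfl fun p _ => ?_
    rw [Finset.sum_comm]
    refine Finset.sum_congr rfl fun q _ => Finset.sum_congr rfl fun k _ => ?_
    rw [(D.T_symm B c).2 p k q]
    ring
  have h3 := h n D B hB c L β ⟨h1, h2⟩ M hM
  rw [N3_gm _ M hMs _ hTs]
  unfold DD.ff DD.gg DD.sg0 at h3
  refine h3.trans (le_of_eq ?_)
  rw [pow_two, Matrix.mul_assoc _ _ M, Matrix.mul_assoc _ _ (_ * M)]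

end Vale.Agent.P254.Eq630
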